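import Mathlib

/-! P227: support functions, combinations of symmetric convex bodies, volume inequality. -/

namespace P227

open MeasureTheory Set

/-- origin-symmetric convex body in `ℝⁿ` -/
structure SymBody {n : ℕ} (K : Set (Fin n → ℝ)) : Prop where
  conv : Convex ℝ K
  comp : IsCompact K
  int : (interior K).Nonempty
  symm : ∀ x ∈ K, -x ∈ K

/-- support function -/
noncomputable def supp {n : ℕ} (K : Set (Fin n → ℝ)) (u : Fin n → ℝ) : ℝ :=
  sSup ((fun x => ∑ i, u i * x i) '' K)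

/-- the `p`-mean with weights `1 - l`, `l`; the geometric mean for `p = 0` -/
noncomputable def mean (p l s t : ℝ) : ℝ :=
  if p = 0 then s ^ (1 - l) * t ^ l else ((1 - l) * s ^ p + l * t ^ p) ^ (1 / p)

/-- Wulff body of `F(h_K, h_L)` -/
def comb (F : ℝ → ℝ → ℝ) {n : ℕ} (K L : Set (Fin n → ℝ)) : Set (Fin n → ℝ) :=
  {x | ∀ u : Fin n → ℝ, ∑ i, u i ^ 2 = 1 → ∑ i, u i * x i ≤ F (supp K u) (supp L u)}

/-- `|(1-l) K +_p l L| ≥ c |K|^(1-l) |L|^l` for all origin-symmetric convex bodies of `ℝⁿ`.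
`p = 0`, `c = 1` is the logarithmic Brunn-Minkowski inequality of `ℝⁿ`. -/
def Ineq (n : ℕ) (p : ℝ) (c : ENNReal) : Prop :=
  ∀ K L : Set (Fin n → ℝ), SymBody K → SymBody L → ∀ l : ℝ, 0 ≤ l → l ≤ 1 →
    c * (volume K ^ (1 - l) * volume L ^ l) ≤ volume (comb (mean p l) K L)

end P227
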