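import Mathlib
import Vale.Agent.P227.Defs

namespace P227

open MeasureTheory Set
open scoped Pointwise

/-- comparison of the `p`-mean with the geometric mean; hint: with `a, b` = the logarithms of
`s, t` and `m = (1-l) a + l b`, `exp x ≤ 1 + x + x^2` for `|x| ≤ 1` -/
theorem mean_le {p l s t D : ℝ} (hp : 0 < p) (hl : 0 ≤ l) (hl1 : l ≤ 1) (hs : 0 < s) (ht : 0 < t)
    (hD : |Real.log s - Real.log t| ≤ D) (hpD : p * D ≤ 1) :
    mean p l s t ≤ Real.exp (p * D ^ 2) * mean 0 l s t := by
  have hD0 : 0 ≤ D := (abs_nonneg _).trans hD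
  set a := Real.log s with ha
  set b := Real.log t with hb
  set m := (1 - l) * a + l * b with hm
  have hs' : s = Real.exp a := (Real.exp_log hs).symm
  have ht' : t = Real.exp b := (Real.exp_log ht).symm
  have h0 : mean 0 l s t = Real.exp m := by
    unfold mean
    rw [if_pos rfl, hs', ht', ← Real.exp_mul, ← Real.exp_mul, ← Real.exp_add, hm]
    congr 1
    ring
  have key : ∀ x : ℝ, |x| ≤ 1 → Real.exp x ≤ 1 + x + x ^ 2 := by
    intro x hx
    have := (abs_le.1 (Real.abs_exp_sub_one_sub_id_le hx)).2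
    linarith
  have hx1 : |p * (a - m)| ≤ p * D := by
    rw [abs_mul, abs_of_pos hp]
    refine mul_le_mul_of_nonneg_left ?_ hp.le
    have e : a - m = l * (a - b) := by rw [hm]; ring
    rw [e, abs_mul, abs_of_nonneg hl]
    nlinarith [abs_nonneg (a - b)]
  have hx2 : |p * (b - m)| ≤ p * D := by
    rw [abs_mul, abs_of_pos hp]
    refine mul_le_mul_of_nonneg_left ?_ hp.le
    have e : b - m = -((1 - l) * (a - b)) := by rw [hm]; ring
    rw [e, abs_neg, abs_mul, abs_of_nonneg (by linarith : (0 : ℝ) ≤ 1 - l)]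
    nlinarith [abs_nonneg (a - b)]
  have k1 := key _ (hx1.trans hpD)
  have k2 := key _ (hx2.trans hpD)
  have q1 : (p * (a - m)) ^ 2 ≤ (p * D) ^ 2 := sq_le_sq' (by linarith [(abs_le.1 hx1).1]) (abs_le.1 hx1).2
  have q2 : (p * (b - m)) ^ 2 ≤ (p * D) ^ 2 := sq_le_sq' (by linarith [(abs_le.1 hx2).1]) (abs_le.1 hx2).2
  have hsum : (1 - l) * Real.exp (p * (a - m)) + l * Real.exp (p * (b - m))
      ≤ Real.exp ((p * D) ^ 2) := by
    have e1 : (1 - l) * Real.exp (p * (a - m)) ≤ (1 - l) * (1 + p * (a - m) + (p * D) ^ 2) :=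
      mul_le_mul_of_nonneg_left (by linarith) (by linarith)
    have e2 : l * Real.exp (p * (b - m)) ≤ l * (1 + p * (b - m) + (p * D) ^ 2) :=
      mul_le_mul_of_nonneg_left (by linarith) hl
    have e3 : (1 - l) * (1 + p * (a - m) + (p * D) ^ 2) + l * (1 + p * (b - m) + (p * D) ^ 2)
        = 1 + (p * D) ^ 2 := by rw [hm]; ring
    have e4 := Real.add_one_le_exp ((p * D) ^ 2)
    linarith
  have hval : (1 - l) * s ^ p + l * t ^ p
      = Real.exp (p * m) * ((1 - l) * Real.exp (p * (a - m)) + l * Real.exp (p * (b - m))) := by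
    rw [hs', ht', ← Real.exp_mul, ← Real.exp_mul, mul_add]
    have e1 : Real.exp (p * m) * ((1 - l) * Real.exp (p * (a - m)))
        = (1 - l) * Real.exp (a * p) := by
      have : Real.exp (a * p) = Real.exp (p * m) * Real.exp (p * (a - m)) := by
        rw [← Real.exp_add]; congr 1; ring
      rw [this]; ring
    have e2 : Real.exp (p * m) * (l * Real.exp (p * (b - m)))
        = l * Real.exp (b * p) := by
      have : Real.exp (b * p) = Real.exp (p * m) * Real.exp (p * (b - m)) := by
        rw [← Real.exp_add]; congr 1; ring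
      rw [this]; ring
    rw [e1, e2]
  have hle : (1 - l) * s ^ p + l * t ^ p ≤ Real.exp (p * m + (p * D) ^ 2) := by
    rw [hval, Real.exp_add]
    exact mul_le_mul_of_nonneg_left hsum (Real.exp_pos _).le
  have hnn : 0 ≤ (1 - l) * s ^ p + l * t ^ p := by
    have e1 := Real.rpow_nonneg hs.le p
    have e2 := Real.rpow_nonneg ht.le p
    have : 0 ≤ 1 - l := by linarith
    positivity
  rw [h0]
  unfold mean
  rw [if_neg hp.ne']
  calc ((1 - l) * s ^ p + l * t ^ p) ^ (1 / p)
      ≤ (Real.exp (p * m + (p * D) ^ 2)) ^ (1 / p) :=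
        Real.rpow_le_rpow hnn hle (by positivity)
    _ = Real.exp (p * D ^ 2) * Real.exp m := by
        rw [← Real.exp_mul, ← Real.exp_add]
        congr 1
        field_simp
        ring

theorem le_supp {n : ℕ} {K : Set (Fin n → ℝ)} (hK : SymBody K) {x : Fin n → ℝ} (hx : x ∈ K)
    (u : Fin n → ℝ) : ∑ i, u i * x i ≤ supp K u := by
  unfold supp
  apply le_csSup
  · have hc : Continuous fun x : Fin n → ℝ => ∑ i, u i * x i := by fun_prop
    exact (hK.comp.image hc).bddAbove
  · exact ⟨x, hx, rfl⟩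

theorem zero_mem_interior {n : ℕ} {K : Set (Fin n → ℝ)} (hK : SymBody K) :
    (0 : Fin n → ℝ) ∈ interior K := by
  obtain ⟨a, ha⟩ := hK.int
  have h1 : -a ∈ interior K := by
    have hop : IsOpen (-(interior K)) := isOpen_interior.neg
    have hsub : -(interior K) ⊆ K := by
      intro x hx
      have h2 : -x ∈ interior K := hx
      have := hK.symm _ (interior_subset h2)
      rwa [neg_neg] at this
    apply interior_maximal hsub hop
    show -(-a) ∈ interior K
    rwa [neg_neg]
  have := hK.conv.interior ha h1 (by norm_num : (0 : ℝ) ≤ 1 / 2) (by norm_num : (0 : ℝ) ≤ 1 / 2)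
    (by norm_num)
  simpa using this

/-- on the unit sphere `r ≤ h_K ≤ R` -/
theorem supp_bounds {n : ℕ} {K : Set (Fin n → ℝ)} (hK : SymBody K) :
    ∃ r R : ℝ, 0 < r ∧ ∀ u : Fin n → ℝ, ∑ i, u i ^ 2 = 1 → r ≤ supp K u ∧ supp K u ≤ R := by
  have h0 := zero_mem_interior hK
  rw [mem_interior_iff_mem_nhds, Metric.mem_nhds_iff] at h0
  obtain ⟨ε, hε, hball⟩ := h0
  obtain ⟨R, hR⟩ := hK.comp.isBounded.exists_norm_le
  refine ⟨ε / 2, n * |R|, by positivity, fun u hu => ⟨?_, ?_⟩⟩
  · have hu1 : ∀ i, |u i| ≤ 1 := by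
      intro i
      rw [← sq_le_one_iff_abs_le_one, ← hu]
      exact Finset.single_le_sum (f := fun i => u i ^ 2) (fun j _ => sq_nonneg _) (Finset.mem_univ i)
    have hmem : (ε / 2) • u ∈ K := by
      apply hball
      rw [mem_ball_zero_iff, norm_smul, Real.norm_eq_abs, abs_of_pos (by positivity)]
      have : ‖u‖ ≤ 1 := (pi_norm_le_iff_of_nonneg zero_le_one).2 fun i => by
        rw [Real.norm_eq_abs]; exact hu1 i
      nlinarith
    have := le_supp hK hmem u
    have e : ∑ i, u i * ((ε / 2) • u) i = ε / 2 * ∑ i, u i ^ 2 := by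
      rw [Finset.mul_sum]
      exact Finset.sum_congr rfl fun i _ => by simp only [Pi.smul_apply, smul_eq_mul]; ring
    rw [e, hu, mul_one] at this
    exact this
  · have hu1 : ∀ i, |u i| ≤ 1 := by
      intro i
      rw [← sq_le_one_iff_abs_le_one, ← hu]
      exact Finset.single_le_sum (f := fun i => u i ^ 2) (fun j _ => sq_nonneg _) (Finset.mem_univ i)
    unfold supp
    apply csSup_le
    · exact ⟨_, 0, interior_subset (zero_mem_interior hK), rfl⟩
    · rintro _ ⟨x, hx, rfl⟩
      have h1 : ∀ i, u i * x i ≤ |R| := by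
        intro i
        have h2 : |x i| ≤ |R| := by
          have := (norm_le_pi_norm x i).trans (hR x hx)
          rw [Real.norm_eq_abs] at this
          exact this.trans (le_abs_self R)
        calc u i * x i ≤ |u i * x i| := le_abs_self _
          _ = |u i| * |x i| := abs_mul _ _
          _ ≤ 1 * |R| := mul_le_mul (hu1 i) h2 (abs_nonneg _) zero_le_one
          _ = |R| := one_mul _
      calc ∑ i, u i * x i ≤ ∑ _i : Fin n, |R| := Finset.sum_le_sum fun i _ => h1 i
        _ = n * |R| := by simp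

/-- `|K_p| ≤ (1 + δ) |K_0|` for small `p` -/
theorem comb_limit {n : ℕ} {K L : Set (Fin n → ℝ)} (hK : SymBody K) (hL : SymBody L) :
    ∃ D : ℝ, 0 ≤ D ∧ ∀ p l : ℝ, 0 < p → p * D ≤ 1 → 0 ≤ l → l ≤ 1 →
      volume (comb (mean p l) K L)
        ≤ ENNReal.ofReal (Real.exp (p * D ^ 2) ^ n) * volume (comb (mean 0 l) K L) := by
  obtain ⟨r, R, hr, h1⟩ := supp_bounds hK
  obtain ⟨r', R', hr', h2⟩ := supp_bounds hL
  refine ⟨|Real.log r| + |Real.log R| + |Real.log r'| + |Real.log R'|, by positivity, ?_⟩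
  intro p l hp hpD hl hl1
  set D := |Real.log r| + |Real.log R| + |Real.log r'| + |Real.log R'| with hDdef
  have hlog : ∀ a b x : ℝ, 0 < a → a ≤ x → x ≤ b → |Real.log x| ≤ |Real.log a| + |Real.log b| := by
    intro a b x ha hax hxb
    have e1 := Real.log_le_log ha hax
    have e2 := Real.log_le_log (lt_of_lt_of_le ha hax) hxb
    rw [abs_le]
    constructor
    · linarith [neg_abs_le (Real.log a), abs_nonneg (Real.log b)]
    · linarith [le_abs_self (Real.log b), abs_nonneg (Real.log a)]
  set c := Real.exp (p * D ^ 2) with hc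
  have hcpos : 0 < c := Real.exp_pos _
  have hsub : comb (mean p l) K L ⊆ c • comb (mean 0 l) K L := by
    intro x hx
    rw [mem_smul_set_iff_inv_smul_mem₀ hcpos.ne']
    intro u hu
    have b1 := h1 u hu
    have b2 := h2 u hu
    have hs : 0 < supp K u := lt_of_lt_of_le hr b1.1
    have ht : 0 < supp L u := lt_of_lt_of_le hr' b2.1
    have hDle : |Real.log (supp K u) - Real.log (supp L u)| ≤ D := by
      have e1 := hlog r R _ hr b1.1 b1.2
      have e2 := hlog r' R' _ hr' b2.1 b2.2
      have e3 := abs_sub (Real.log (supp K u)) (Real.log (supp L u))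
      linarith
    have h3 := (hx u hu).trans (mean_le hp hl hl1 hs ht hDle hpD)
    have e : ∑ i, u i * (c⁻¹ • x) i = c⁻¹ * ∑ i, u i * x i := by
      rw [Finset.mul_sum]
      exact Finset.sum_congr rfl fun i _ => by simp only [Pi.smul_apply, smul_eq_mul]; ring
    rw [e, inv_mul_le_iff₀ hcpos]
    exact h3
  calc volume (comb (mean p l) K L) ≤ volume (c • comb (mean 0 l) K L) := measure_mono hsub
    _ = ENNReal.ofReal (c ^ n) * volume (comb (mean 0 l) K L) := by
        rw [Measure.addHaar_smul]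
        simp only [Module.finrank_fintype_fun_eq_card, Fintype.card_fin]
        rw [abs_of_pos (pow_pos hcpos n)]

end P227
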