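import Mathlib
import Vale.Agent.P227.Defs

namespace P227

open MeasureTheory Set

/-- Cartesian product -/
def cp {n m : ℕ} (K : Set (Fin n → ℝ)) (K' : Set (Fin m → ℝ)) : Set (Fin (n + m) → ℝ) :=
  {z | (fun i => z (Fin.castAdd m i)) ∈ K ∧ (fun j => z (Fin.natAdd n j)) ∈ K'}

theorem cp_body {n m : ℕ} {K : Set (Fin n → ℝ)} {K' : Set (Fin m → ℝ)} (hK : SymBody K)
    (hK' : SymBody K') : SymBody (cp K K') := by
  refine ⟨?_, ?_, ?_, ?_⟩
  · rintro z ⟨hz1, hz2⟩ z' ⟨hz1', hz2'⟩ a b ha hb hab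
    exact ⟨hK.conv hz1 hz1' ha hb hab, hK'.conv hz2 hz2' ha hb hab⟩
  · have himg : cp K K' = (fun q : (Fin n → ℝ) × (Fin m → ℝ) => Fin.append q.1 q.2) ''
        (K ×ˢ K') := by
      ext z
      constructor
      · rintro ⟨h1, h2⟩
        refine ⟨(_, _), ⟨h1, h2⟩, ?_⟩
        ext i
        refine Fin.addCases (fun i => ?_) (fun j => ?_) i
        · simp
        · simp
      · rintro ⟨⟨x, y⟩, ⟨hx, hy⟩, rfl⟩
        refine ⟨?_, ?_⟩
        · simpa using hx
        · simpa using hy
    rw [himg]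
    apply (hK.comp.prod hK'.comp).image
    apply continuous_pi
    intro i
    refine Fin.addCases (fun i => ?_) (fun j => ?_) i
    · simp only [Fin.append_left]
      fun_prop
    · simp only [Fin.append_right]
      fun_prop
  · obtain ⟨a, ha⟩ := hK.int
    obtain ⟨b, hb⟩ := hK'.int
    have hU : IsOpen {z : Fin (n + m) → ℝ | (fun i => z (Fin.castAdd m i)) ∈ interior K ∧
        (fun j => z (Fin.natAdd n j)) ∈ interior K'} := by
      apply IsOpen.inter
      · exact isOpen_interior.preimage (by fun_prop)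
      · exact isOpen_interior.preimage (by fun_prop)
    have hsub : {z : Fin (n + m) → ℝ | (fun i => z (Fin.castAdd m i)) ∈ interior K ∧
        (fun j => z (Fin.natAdd n j)) ∈ interior K'} ⊆ cp K K' := by
      rintro z ⟨h1, h3⟩
      exact ⟨interior_subset h1, interior_subset h3⟩
    refine ⟨Fin.append a b, interior_maximal hsub hU ⟨?_, ?_⟩⟩
    · simpa using ha
    · simpa using hb
  · rintro z ⟨h1, h2⟩
    exact ⟨hK.symm _ h1, hK'.symm _ h2⟩

theorem cp_volume {n m : ℕ} (K : Set (Fin n → ℝ)) (K' : Set (Fin m → ℝ)) :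
    volume (cp K K') = volume K * volume K' := by
  have h1 := (volume_measurePreserving_piCongrLeft (fun _ : Fin (n + m) => ℝ)
    (finSumFinEquiv : Fin n ⊕ Fin m ≃ Fin (n + m)))
  have h2 := volume_measurePreserving_sumPiEquivProdPi (fun _ : Fin n ⊕ Fin m => ℝ)
  have h3 : volume (cp K K') = volume ((MeasurableEquiv.piCongrLeft (fun _ : Fin (n + m) => ℝ)
    (finSumFinEquiv : Fin n ⊕ Fin m ≃ Fin (n + m))) ⁻¹' (cp K K')) :=
    (h1.measure_preimage_equiv _).symm
  have h4 : (MeasurableEquiv.piCongrLeft (fun _ : Fin (n + m) => ℝ)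
    (finSumFinEquiv : Fin n ⊕ Fin m ≃ Fin (n + m))) ⁻¹' (cp K K')
      = (MeasurableEquiv.sumPiEquivProdPi (fun _ : Fin n ⊕ Fin m => ℝ)) ⁻¹' (K ×ˢ K') := by
    ext z
    have e1 : ∀ s : Fin n ⊕ Fin m, (MeasurableEquiv.piCongrLeft (fun _ : Fin (n + m) => ℝ)
        (finSumFinEquiv : Fin n ⊕ Fin m ≃ Fin (n + m))) z (finSumFinEquiv s) = z s := by
      intro s
      exact Equiv.piCongrLeft_apply_apply (fun _ : Fin (n + m) => ℝ) finSumFinEquiv z s
    have e2 : (fun i => (MeasurableEquiv.piCongrLeft (fun _ : Fin (n + m) => ℝ)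
        (finSumFinEquiv : Fin n ⊕ Fin m ≃ Fin (n + m))) z (Fin.castAdd m i))
        = fun i => z (Sum.inl i) := by
      ext i
      rw [← finSumFinEquiv_apply_left]
      exact e1 _
    have e3 : (fun j => (MeasurableEquiv.piCongrLeft (fun _ : Fin (n + m) => ℝ)
        (finSumFinEquiv : Fin n ⊕ Fin m ≃ Fin (n + m))) z (Fin.natAdd n j))
        = fun j => z (Sum.inr j) := by
      ext j
      rw [← finSumFinEquiv_apply_right]
      exact e1 _
    show ((fun i => _) ∈ K ∧ (fun j => _) ∈ K') ↔ ((fun i => z (Sum.inl i)) ∈ K ∧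
      (fun j => z (Sum.inr j)) ∈ K')
    rw [e2, e3]
  rw [h3, h4, h2.measure_preimage_equiv, Measure.volume_eq_prod, Measure.prod_prod]

theorem supp_cp_left {n m : ℕ} (K : Set (Fin n → ℝ)) {K' : Set (Fin m → ℝ)} (h : K'.Nonempty)
    (u : Fin n → ℝ) : supp (cp K K') (Fin.append u 0) = supp K u := by
  unfold supp
  congr 1
  ext r
  constructor
  · rintro ⟨z, ⟨h1, _⟩, rfl⟩
    refine ⟨_, h1, ?_⟩
    simp [Fin.sum_univ_add]
  · rintro ⟨x, hx, rfl⟩
    obtain ⟨y, hy⟩ := h
    refine ⟨Fin.append x y, ⟨by simpa using hx, by simpa using hy⟩, ?_⟩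
    simp [Fin.sum_univ_add]

theorem supp_cp_right {n m : ℕ} {K : Set (Fin n → ℝ)} (K' : Set (Fin m → ℝ)) (h : K.Nonempty)
    (u : Fin m → ℝ) : supp (cp K K') (Fin.append 0 u) = supp K' u := by
  unfold supp
  congr 1
  ext r
  constructor
  · rintro ⟨z, ⟨_, h1⟩, rfl⟩
    refine ⟨_, h1, ?_⟩
    simp [Fin.sum_univ_add]
  · rintro ⟨x, hx, rfl⟩
    obtain ⟨y, hy⟩ := h
    refine ⟨Fin.append y x, ⟨by simpa using hy, by simpa using hx⟩, ?_⟩
    simp [Fin.sum_univ_add]

theorem comb_cp_subset {n m : ℕ} (K L : Set (Fin n → ℝ)) (K' L' : Set (Fin m → ℝ))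
    (hK : K.Nonempty) (hL : L.Nonempty) (hK' : K'.Nonempty) (hL' : L'.Nonempty)
    (F : ℝ → ℝ → ℝ) : comb F (cp K K') (cp L L') ⊆ cp (comb F K L) (comb F K' L') := by
  intro z hz
  refine ⟨fun u hu => ?_, fun u hu => ?_⟩
  · have := hz (Fin.append u 0) (by simpa [Fin.sum_univ_add] using hu)
    rw [supp_cp_left K hK', supp_cp_left L hL'] at this
    simpa [Fin.sum_univ_add] using this
  · have := hz (Fin.append 0 u) (by simpa [Fin.sum_univ_add] using hu)
    rw [supp_cp_right K' hK, supp_cp_right L' hL] at this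
    simpa [Fin.sum_univ_add] using this

theorem SymBody.nonempty {n : ℕ} {K : Set (Fin n → ℝ)} (h : SymBody K) : K.Nonempty :=
  h.int.mono interior_subset

/-- product of two pairs -/
theorem prod_pair {n m : ℕ} (K L : Set (Fin n → ℝ)) (K' L' : Set (Fin m → ℝ))
    (hK : SymBody K) (hL : SymBody L) (hK' : SymBody K') (hL' : SymBody L') :
    ∃ A B : Set (Fin (n + m) → ℝ), SymBody A ∧ SymBody B ∧
      volume A = volume K * volume K' ∧ volume B = volume L * volume L' ∧
      ∀ F : ℝ → ℝ → ℝ, volume (comb F A B) ≤ volume (comb F K L) * volume (comb F K' L') := by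
  refine ⟨cp K K', cp L L', cp_body hK hK', cp_body hL hL', cp_volume _ _, cp_volume _ _, ?_⟩
  intro F
  rw [← cp_volume]
  exact measure_mono (comb_cp_subset K L K' L' hK.nonempty hL.nonempty hK'.nonempty hL'.nonempty F)

/-- the segment -/
theorem segment_pair : ∃ I : Set (Fin 1 → ℝ), SymBody I ∧ volume I = 2 ∧
    ∀ F : ℝ → ℝ → ℝ, F 1 1 = 1 → volume (comb F I I) ≤ 2 := by
  have hvol : volume (Icc (fun _ : Fin 1 => (-1 : ℝ)) (fun _ => 1)) = 2 := by
    rw [Real.volume_Icc_pi]
    norm_num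
  refine ⟨Icc (fun _ => (-1 : ℝ)) (fun _ => 1), ⟨convex_Icc _ _, isCompact_Icc, ?_, ?_⟩, hvol, ?_⟩
  · refine ⟨0, ?_⟩
    have hU : IsOpen {x : Fin 1 → ℝ | -1 < x 0 ∧ x 0 < 1} := by
      apply IsOpen.inter
      · exact isOpen_lt continuous_const (continuous_apply 0)
      · exact isOpen_lt (continuous_apply 0) continuous_const
    refine interior_maximal ?_ hU (by simp)
    rintro x ⟨h1, h2⟩
    constructor
    · intro i
      rw [Subsingleton.elim i 0]
      exact h1.le
    · intro i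
      rw [Subsingleton.elim i 0]
      exact h2.le
  · rintro x ⟨h1, h2⟩
    constructor
    · intro i
      have := h2 i
      simp only [Pi.neg_apply]
      linarith
    · intro i
      have := h1 i
      simp only [Pi.neg_apply]
      linarith
  · intro F hF
    refine le_trans (measure_mono ?_) hvol.le
    have hs1 : supp (Icc (fun _ : Fin 1 => (-1 : ℝ)) (fun _ => 1)) (fun _ => 1) = 1 := by
      unfold supp
      apply IsGreatest.csSup_eq
      constructor
      · exact ⟨fun _ => 1, ⟨fun _ => by norm_num, fun _ => le_rfl⟩, by simp⟩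
      · rintro _ ⟨x, hx, rfl⟩
        have := hx.2 0
        simpa using this
    have hs2 : supp (Icc (fun _ : Fin 1 => (-1 : ℝ)) (fun _ => 1)) (fun _ => -1) = 1 := by
      unfold supp
      apply IsGreatest.csSup_eq
      constructor
      · exact ⟨fun _ => -1, ⟨fun _ => le_rfl, fun _ => by norm_num⟩, by simp⟩
      · rintro _ ⟨x, hx, rfl⟩
        have := hx.1 0
        simp only [Fin.sum_univ_one]
        linarith
    intro x hx
    have h1 := hx (fun _ => 1) (by simp)
    have h2 := hx (fun _ => -1) (by simp)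
    rw [hs1, hF] at h1
    rw [hs2, hF] at h2
    simp only [Fin.sum_univ_one] at h1 h2
    constructor
    · intro i
      rw [Subsingleton.elim i 0]
      linarith
    · intro i
      rw [Subsingleton.elim i 0]
      linarith

/-- powers with segments added: dimension `n * m + r` -/
theorem power_pair {n : ℕ} (K L : Set (Fin n → ℝ)) (hK : SymBody K) (hL : SymBody L) (m r : ℕ)
    (hm : 1 ≤ m) :
    ∃ A B : Set (Fin (n * m + r) → ℝ), SymBody A ∧ SymBody B ∧
      volume A = volume K ^ m * 2 ^ r ∧ volume B = volume L ^ m * 2 ^ r ∧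
      ∀ F : ℝ → ℝ → ℝ, F 1 1 = 1 → volume (comb F A B) ≤ volume (comb F K L) ^ m * 2 ^ r := by
  induction r with
  | zero =>
    simp only [pow_zero, mul_one, Nat.add_zero]
    induction m, hm using Nat.le_induction with
    | base =>
      rw [Nat.mul_one]
      exact ⟨K, L, hK, hL, by simp, by simp, fun F _ => by simp⟩
    | succ m hm ih =>
      obtain ⟨A, B, hA, hB, h1, h2, h3⟩ := ih
      obtain ⟨A', B', hA', hB', h1', h2', h3'⟩ := prod_pair A B K L hA hB hK hL
      refine ⟨A', B', hA', hB', ?_, ?_, fun F hF => ?_⟩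
      · rw [h1', h1, pow_succ]
      · rw [h2', h2, pow_succ]
      · rw [pow_succ]
        exact (h3' F).trans (mul_le_mul_left (h3 F hF) _)
  | succ r ih =>
    obtain ⟨A, B, hA, hB, h1, h2, h3⟩ := ih
    obtain ⟨I, hI, hv, hc⟩ := segment_pair
    obtain ⟨A', B', hA', hB', h1', h2', h3'⟩ := prod_pair A B I I hA hB hI hI
    refine ⟨A', B', hA', hB', ?_, ?_, fun F hF => ?_⟩
    · rw [h1', h1, hv, pow_succ, mul_assoc]
    · rw [h2', h2, hv, pow_succ, mul_assoc]
    · rw [pow_succ, ← mul_assoc]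
      exact (h3' F).trans (mul_le_mul' (h3 F hF) (hc F hF))

end P227
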