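import Mathlib
import Vale.Agent.P227.Prod
import Vale.Agent.P227.Lim

namespace P227

open MeasureTheory Set Filter

theorem mean_one {p l : ℝ} : mean p l 1 1 = 1 := by
  unfold mean
  split_ifs
  · simp
  · simp

theorem SymBody.vol_pos {n : ℕ} {K : Set (Fin n → ℝ)} (h : SymBody K) : volume K ≠ 0 :=
  (Measure.measure_pos_of_nonempty_interior volume h.int).ne'

theorem SymBody.vol_top {n : ℕ} {K : Set (Fin n → ℝ)} (h : SymBody K) : volume K ≠ ⊤ :=
  h.comp.measure_lt_top.ne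

theorem pow_split (x y : ENNReal) (m r : ℕ) {l : ℝ} (hl : 0 ≤ l) (hl1 : l ≤ 1) :
    (x ^ m * 2 ^ r) ^ (1 - l) * (y ^ m * 2 ^ r) ^ l
      = (x ^ (1 - l) * y ^ l) ^ m * 2 ^ r := by
  have h1 : 0 ≤ 1 - l := by linarith
  rw [ENNReal.mul_rpow_of_nonneg _ _ h1, ENNReal.mul_rpow_of_nonneg _ _ hl]
  have e1 : ∀ (z : ENNReal) (k : ℕ) (a : ℝ), (z ^ k) ^ a = (z ^ a) ^ k := by
    intro z k a
    rw [← ENNReal.rpow_natCast, ← ENNReal.rpow_mul, mul_comm, ENNReal.rpow_mul,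
      ENNReal.rpow_natCast]
  rw [e1 x, e1 y, mul_pow]
  have e2 : ((2 : ENNReal) ^ r) ^ (1 - l) * ((2 : ENNReal) ^ r) ^ l = 2 ^ r := by
    rw [← ENNReal.rpow_add_of_nonneg _ _ h1 hl]
    norm_num
  calc (x ^ (1 - l)) ^ m * (2 ^ r) ^ (1 - l) * ((y ^ l) ^ m * (2 ^ r) ^ l)
      = (x ^ (1 - l)) ^ m * (y ^ l) ^ m * ((2 ^ r) ^ (1 - l) * (2 ^ r) ^ l) := by ring
    _ = (x ^ (1 - l)) ^ m * (y ^ l) ^ m * 2 ^ r := by rw [e2]

/-- an inequality with loss `c ^ N` in a large dimension gives loss `c ^ (2 n)` in dimension `n` -/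
theorem descend {n N : ℕ} (hn : 1 ≤ n) (hN : n ≤ N) {p : ℝ} {c : ENNReal} (hc : c ≤ 1)
    (h : Ineq N p (c ^ N)) : Ineq n p (c ^ (2 * n)) := by
  intro K L hK hL l hl hl1
  have hm : 1 ≤ N / n := (Nat.one_le_div_iff (by omega)).2 hN
  have hNeq : N = n * (N / n) + N % n := (Nat.div_add_mod N n).symm
  have hr : N % n < n := Nat.mod_lt _ (by omega)
  obtain ⟨A, B, hA, hB, h1, h2, h3⟩ := power_pair K L hK hL (N / n) (N % n) hm
  rw [hNeq] at h
  have h4 := (h A B hA hB l hl hl1).trans (h3 (mean p l) mean_one)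
  rw [h1, h2, pow_split _ _ _ _ hl hl1] at h4
  set m := N / n
  set r := N % n
  set X := volume K ^ (1 - l) * volume L ^ l with hX
  set V := volume (comb (mean p l) K L) with hV
  have h5 : c ^ (n * m + r) * X ^ m ≤ V ^ m := by
    rw [← mul_assoc] at h4
    exact (ENNReal.mul_le_mul_iff_left (by positivity) (by simp)).1 h4
  have h6 : (c ^ (2 * n) * X) ^ m ≤ V ^ m := by
    refine le_trans ?_ h5
    rw [mul_pow, ← pow_mul]
    refine mul_le_mul_left ?_ _
    apply pow_le_pow_right_of_le_one' hc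
    nlinarith
  have hm0 : (0 : ℝ) < m := by exact_mod_cast hm
  rw [← ENNReal.rpow_le_rpow_iff hm0, ENNReal.rpow_natCast, ENNReal.rpow_natCast]
  exact h6

/-- dimension `n + 1` implies dimension `n` -/
theorem step_down {n : ℕ} {p : ℝ} (h : Ineq (n + 1) p 1) (hn : 1 ≤ n) : Ineq n p 1 := by
  have := descend (n := n) (N := n + 1) hn (by omega) (p := p) (c := 1) le_rfl
    (by rw [one_pow]; exact h)
  rwa [one_pow] at this

/-- log-Brunn-Minkowski from approximate `p`-inequalities -/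
theorem self_improve
    (h : ∀ ε : ℝ, 0 < ε → ∀ N₀ : ℕ, ∃ N ≥ N₀, ∃ p : ℝ, 0 ≤ p ∧ p ≤ ε ∧
      Ineq N p (ENNReal.ofReal (1 - ε) ^ N)) :
    ∀ n : ℕ, 1 ≤ n → Ineq n 0 1 := by
  intro n hn K L hK hL l hl hl1
  obtain ⟨D, hD, hlim⟩ := comb_limit hK hL
  set X := volume K ^ (1 - l) * volume L ^ l with hX
  set V := volume (comb (mean 0 l) K L) with hV
  have hbound : ∀ ε : ℝ, 0 < ε → ε < 1 → ε * D ≤ 1 →
      ENNReal.ofReal (1 - ε) ^ (2 * n) * X ≤ ENNReal.ofReal (Real.exp (ε * D ^ 2) ^ n) * V := by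
    intro ε hε hε1 hεD
    obtain ⟨N, hN, p, hp0, hpε, hI⟩ := h ε hε n
    have h1 := descend hn hN (by
      rw [← ENNReal.ofReal_one]
      exact ENNReal.ofReal_le_ofReal (by linarith)) hI K L hK hL l hl hl1
    rcases hp0.eq_or_lt with hp | hp
    · rw [← hp] at h1
      refine h1.trans ?_
      have : (1 : ENNReal) ≤ ENNReal.ofReal (Real.exp (ε * D ^ 2) ^ n) := by
        rw [← ENNReal.ofReal_one]
        exact ENNReal.ofReal_le_ofReal (one_le_pow₀ (Real.one_le_exp (by positivity)))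
      calc V = 1 * V := (one_mul _).symm
        _ ≤ _ := mul_le_mul_left this _
    · have hpD : p * D ≤ 1 := (mul_le_mul_of_nonneg_right hpε hD).trans hεD
      refine h1.trans ((hlim p l hp hpD hl hl1).trans ?_)
      refine mul_le_mul_left ?_ _
      apply ENNReal.ofReal_le_ofReal
      apply pow_le_pow_left₀ (Real.exp_pos _).le
      apply Real.exp_le_exp.2
      exact mul_le_mul_of_nonneg_right hpε (sq_nonneg _)
  rw [one_mul]
  -- let `ε → 0`
  have c1 : Continuous fun ε : ℝ => ENNReal.ofReal (1 - ε) ^ (2 * n) :=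
    (ENNReal.continuous_pow (2 * n)).comp
      (ENNReal.continuous_ofReal.comp (by fun_prop : Continuous fun ε : ℝ => 1 - ε))
  have c2 : Continuous fun ε : ℝ => ENNReal.ofReal (Real.exp (ε * D ^ 2) ^ n) :=
    ENNReal.continuous_ofReal.comp (by fun_prop : Continuous fun ε : ℝ => Real.exp (ε * D ^ 2) ^ n)
  have t1 : Tendsto (fun ε : ℝ => ENNReal.ofReal (1 - ε) ^ (2 * n) * X) (nhdsWithin 0 (Ioi 0))
      (nhds (ENNReal.ofReal (1 - 0) ^ (2 * n) * X)) := by
    apply ENNReal.Tendsto.mul_const ((c1.tendsto 0).mono_left nhdsWithin_le_nhds)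
    left
    simp
  have t2 : Tendsto (fun ε : ℝ => ENNReal.ofReal (Real.exp (ε * D ^ 2) ^ n) * V)
      (nhdsWithin 0 (Ioi 0)) (nhds (ENNReal.ofReal (Real.exp (0 * D ^ 2) ^ n) * V)) := by
    apply ENNReal.Tendsto.mul_const ((c2.tendsto 0).mono_left nhdsWithin_le_nhds)
    left
    simp
  have h3 := le_of_tendsto_of_tendsto t1 t2 (by
    have hmem : Ioo (0 : ℝ) (1 / (D + 1)) ∈ nhdsWithin (0 : ℝ) (Ioi 0) :=
      Ioo_mem_nhdsGT (by positivity)
    filter_upwards [hmem] with ε hε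
    have h4 : ε * (D + 1) < 1 := (lt_div_iff₀ (by positivity)).1 hε.2
    refine hbound ε hε.1 ?_ ?_
    · nlinarith [hε.1]
    · nlinarith [hε.1])
  simpa using h3

/-- the same for a fixed exponent -/
theorem self_improve_p {p : ℝ}
    (h : ∀ ε : ℝ, 0 < ε → ∀ N₀ : ℕ, ∃ N ≥ N₀, Ineq N p (ENNReal.ofReal (1 - ε) ^ N)) :
    ∀ n : ℕ, 1 ≤ n → Ineq n p 1 := by
  intro n hn K L hK hL l hl hl1
  set X := volume K ^ (1 - l) * volume L ^ l with hX
  set V := volume (comb (mean p l) K L) with hV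
  have hbound : ∀ ε : ℝ, 0 < ε → ENNReal.ofReal (1 - ε) ^ (2 * n) * X ≤ V := by
    intro ε hε
    obtain ⟨N, hN, hI⟩ := h ε hε n
    exact descend hn hN (by
      rw [← ENNReal.ofReal_one]
      exact ENNReal.ofReal_le_ofReal (by linarith)) hI K L hK hL l hl hl1
  rw [one_mul]
  have c1 : Continuous fun ε : ℝ => ENNReal.ofReal (1 - ε) ^ (2 * n) :=
    (ENNReal.continuous_pow (2 * n)).comp
      (ENNReal.continuous_ofReal.comp (by fun_prop : Continuous fun ε : ℝ => 1 - ε))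
  have t1 : Tendsto (fun ε : ℝ => ENNReal.ofReal (1 - ε) ^ (2 * n) * X) (nhdsWithin 0 (Ioi 0))
      (nhds (ENNReal.ofReal (1 - 0) ^ (2 * n) * X)) := by
    apply ENNReal.Tendsto.mul_const ((c1.tendsto 0).mono_left nhdsWithin_le_nhds)
    left
    simp
  have h3 := le_of_tendsto t1 (by
    filter_upwards [self_mem_nhdsWithin] with ε hε
    exact hbound ε hε)
  simpa using h3

/-- a counterexample in dimension `n` gives exponentially bad ones in high dimension -/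
theorem amplify {n N : ℕ} (hn : 1 ≤ n) (hN : n ≤ N) {K L : Set (Fin n → ℝ)} (hK : SymBody K)
    (hL : SymBody L) {p l : ℝ} (hl : 0 ≤ l) (hl1 : l ≤ 1) {ρ : ENNReal}
    (h : volume (comb (mean p l) K L) ≤ ρ * (volume K ^ (1 - l) * volume L ^ l)) :
    ∃ A B : Set (Fin N → ℝ), SymBody A ∧ SymBody B ∧
      volume (comb (mean p l) A B) ≤ ρ ^ (N / n) * (volume A ^ (1 - l) * volume B ^ l) := by
  have hm : 1 ≤ N / n := (Nat.one_le_div_iff (by omega)).2 hN
  have hNeq : n * (N / n) + N % n = N := Nat.div_add_mod N n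
  obtain ⟨q, hq⟩ : ∃ q, N / n = q := ⟨_, rfl⟩
  obtain ⟨r, hr⟩ : ∃ r, N % n = r := ⟨_, rfl⟩
  rw [hq, hr] at hNeq
  rw [hq] at hm ⊢
  clear hq hr hN
  subst hNeq
  obtain ⟨A, B, hA, hB, h1, h2, h3⟩ := power_pair K L hK hL q r hm
  refine ⟨A, B, hA, hB, (h3 (mean p l) mean_one).trans ?_⟩
  rw [h1, h2, pow_split _ _ _ _ hl hl1, ← mul_assoc, ← mul_pow]
  exact mul_le_mul_left (pow_le_pow_left' h _) _

end P227
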